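import Vale.Agent.P040.H568.TripodDef
import Vale.Agent.P040.H870.Marks

/-!
# Integer form of the parity law (P040, odd layer, helper177)
-/

set_option autoImplicit false

namespace Vale.Agent.P040.H177

open P040H251 Vale.Agent.P040.H906

variable {W : Type*} [LinearOrder W]

theorem sz_cast (b : Bool) : ((H870.sz b : ℤ) : ℝ) = sg b := by
  cases b <;> simp [H870.sz, sg]

/-- The potential of the parity law in units of a quarter is integral (up to a constant), with the
parity law mod 4. -/
theorem exists_e {c : Cfg W} {col : W → Bool} {E₀ : W → ℝ} {M₀ : ℝ} {lam : Bool → W → ℕ}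
    {lab : W → ZMod 3} {wl : W → Bool} (hg : c.Good) (hL : H568.Law c col E₀ M₀ lam lab wl) {H : ℤ}
    (hM : 4 * M₀ = H) :
    ∃ e : W → ℤ, (∀ x ∈ c.S, ∀ y ∈ c.S, E₀ x - E₀ y = 1 / 4 * ((e x : ℝ) - e y)) ∧
      ∀ b, ∀ x ∈ c.S, (4 : ℤ) ∣ H + H870.sz b * (e (c.f b x) - e x) -
        2 * ((H568.wn wl x (c.f b x) : ℤ) + lam b x) := by
  classical
  obtain ⟨x₀, hx₀⟩ := hg.nonem
  have key : ∀ x ∈ c.S, ∃ n : ℤ, 4 * (E₀ x - E₀ x₀) = n := by
    have hA : (c.S.filter fun x => ∃ n : ℤ, 4 * (E₀ x - E₀ x₀) = n) = c.S := by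
      refine hg.conn _ (Finset.filter_subset _ _) ⟨x₀, ?_⟩ ?_
      · rw [Finset.mem_filter]
        exact ⟨hx₀, 0, by simp⟩
      · intro b x hx
        rw [Finset.mem_filter] at hx ⊢
        obtain ⟨h1, m, hm⟩ := hx
        refine ⟨hg.mem b x h1, ?_⟩
        obtain ⟨n, hn⟩ := hL.par b x h1
        unfold Cfg.dl at hn
        cases b
        · refine ⟨m + H - 2 * ((lam false x : ℤ) + H568.wn wl x (c.f false x)) - 4 * n, ?_⟩
          have e1 : sg false = -1 := by simp [sg]
          rw [e1] at hn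
          push_cast
          linarith
        · refine ⟨m - H + 2 * ((lam true x : ℤ) + H568.wn wl x (c.f true x)) + 4 * n, ?_⟩
          have e1 : sg true = 1 := by simp [sg]
          rw [e1] at hn
          push_cast
          linarith
    intro x hx
    rw [← hA, Finset.mem_filter] at hx
    exact hx.2
  choose! e he using key
  refine ⟨e, ?_, ?_⟩
  · intro x hx y hy
    have h1 := he x hx
    have h2 := he y hy
    linarith
  · intro b x hx
    obtain ⟨n, hn⟩ := hL.par b x hx
    have h1 := he x hx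
    have h2 := he _ (hg.mem b x hx)
    unfold Cfg.dl at hn
    refine ⟨n, ?_⟩
    have : ((H + H870.sz b * (e (c.f b x) - e x) -
        2 * ((H568.wn wl x (c.f b x) : ℤ) + lam b x) : ℤ) : ℝ) = ((4 * n : ℤ) : ℝ) := by
      push_cast
      rw [sz_cast, ← h1, ← h2, ← hM]
      linarith
    exact_mod_cast this

end Vale.Agent.P040.H177
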