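import Vale.Agent.P040.H177.OddLaw
import Vale.Agent.P040.H700.HexDef
import Vale.Agent.P040.H908.Closed

/-!
# The parity law for the hexagon list (P040, odd layer, helper177)

`law_hex`: the centre of the hexagon (the leaves `a`, `b`, `c` are cut in halves, the others are
inside) satisfies the parity law `H568.Law` with the arcs `H700.arc` and the cut `pos w`.
-/

set_option autoImplicit false

namespace Vale.Agent.P040.H177

open P040H251 Vale.Agent.P040.H906 H682 H700 Pst

/-! ### parity of the places in a doubled sub-star -/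

lemma g_cons_zero (x : ℝ) (t : List ℝ) : g (x :: t) 0 = x := by simp [g]

lemma g_cons_succ (x : ℝ) (t : List ℝ) (k : ℕ) : g (x :: t) (k + 1) = g t k := by simp [g]

lemma g_append_lt {l t : List ℝ} {k : ℕ} (hk : k < l.length) : g (l ++ t) k = g l k := by
  unfold g; rw [List.getD_append _ _ _ _ hk]

lemma g_append_ge {l t : List ℝ} {k : ℕ} (hk : l.length ≤ k) :
    g (l ++ t) k = g t (k - l.length) := by
  unfold g; rw [List.getD_append_right _ _ _ _ hk]

lemma dd_place (l : List ℝ) : ∀ (δ : ℝ) (k : ℕ), k < 2 * l.length →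
    ∃ y ∈ l, g (H908.dd δ l) k = if k % 2 = 0 then y + δ else y - δ := by
  induction l with
  | nil => intro δ k hk; simp at hk
  | cons a t ih =>
    intro δ k hk
    rw [List.length_cons] at hk
    rw [H908.dd_cons]
    rcases k with _ | k
    · exact ⟨a, by simp, by simp [g_cons_zero]⟩
    · rw [g_cons_succ]
      by_cases h1 : k < 2 * t.length
      · obtain ⟨y, hy, e⟩ := ih (-δ) k h1
        refine ⟨y, by simp [hy], ?_⟩
        rw [g_append_lt (by rw [H908.dd_length]; exact h1), e]
        rcases Nat.mod_two_eq_zero_or_one k with h0 | h0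
        · rw [if_pos h0, if_neg (by omega)]; ring
        · rw [if_neg (by omega), if_pos (by omega)]; ring
      · have h2 : k = 2 * t.length := by omega
        subst h2
        refine ⟨a, by simp, ?_⟩
        rw [g_append_ge (by rw [H908.dd_length]), H908.dd_length, Nat.sub_self, g_cons_zero,
          if_neg (by omega)]

lemma dbl_place {ι : Type*} (ε : ℝ) (T : List (ι × List ℝ)) : ∀ k, k < (dbl ε T).length →
    ∃ y ∈ pts T, g (dbl ε T) k = if k % 2 = 0 then y - ε else y + ε := by
  induction T with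
  | nil => intro k hk; simp [dbl] at hk
  | cons q T ih =>
    intro k hk
    have e : dbl ε (q :: T) = H908.dd (-ε) q.2 ++ dbl ε T := by
      rw [dbl_cons]
      unfold H908.dd
      rw [neg_neg, List.append_assoc]
    have hp : pts (q :: T) = q.2 ++ pts T := by simp [pts]
    rw [e] at hk ⊢
    rw [List.length_append, H908.dd_length] at hk
    by_cases h1 : k < 2 * q.2.length
    · obtain ⟨y, hy, e1⟩ := dd_place q.2 (-ε) k h1
      refine ⟨y, by rw [hp]; exact List.mem_append_left _ hy, ?_⟩
      rw [g_append_lt (by rw [H908.dd_length]; exact h1), e1]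
      split_ifs
      · ring
      · ring
    · obtain ⟨y, hy, e1⟩ := ih (k - 2 * q.2.length) (by omega)
      refine ⟨y, by rw [hp]; exact List.mem_append_right _ hy, ?_⟩
      rw [g_append_ge (by rw [H908.dd_length]; omega), H908.dd_length, e1]
      have : (k - 2 * q.2.length) % 2 = k % 2 := by omega
      rw [this]

lemma dbl_odd {ι : Type*} {ε : ℝ} (h0 : 0 < ε) {T : List (ι × List ℝ)} (hs : Sepd ε (pts T)) {z : ℝ}
    (hz : z ∈ pts T) (hm : z + ε ∈ dbl ε T) : (dbl ε T).idxOf (z + ε) % 2 = 1 := by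
  have hk := List.idxOf_lt_length_of_mem hm
  obtain ⟨y, hy, e⟩ := dbl_place ε T _ hk
  rw [g_idx hm] at e
  by_contra hh
  rw [if_pos (by omega), sub_eq_add_neg] at e
  by_cases hyz : z = y
  · subst hyz; linarith
  · exact hs.ne hz hy hyz (by rw [abs_of_pos h0]) (by rw [abs_neg, abs_of_pos h0]) e

/-! ### the masses -/

section

variable {h : ℕ} {P : OData h} {ε : ℝ}

/-- `ε` is small for the leaves -/
def LSep (P : OData h) (ε : ℝ) : Prop := ∀ i j, P.pos i < P.pos j → P.pos i + 2 * ε < P.pos j

/-- the points of the list are next to a leaf or far from it -/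
def Near (P : OData h) (ε : ℝ) (L : List ℝ) : Prop :=
  ∀ x ∈ L, ∀ i, x = P.pos i - ε ∨ x = P.pos i + ε ∨ 2 * ε < |x - P.pos i|

theorem lab_lt (h0 : 0 < ε) (hs : LSep P ε) (i : Fin (2 * h + 1)) (x : ℝ) :
    2 * P.rk (P.pos i) < P.rk x + P.rk (x - 2 * ε) ↔ P.pos i < x := by
  constructor
  · intro hh
    by_contra hc
    have h1 := P.rk_mono (not_lt.1 hc)
    have h2 := P.rk_mono (show x - 2 * ε ≤ P.pos i by linarith [not_lt.1 hc])
    omega
  · intro hh
    have h1 := (P.rk_lt_iff i x).2 hh
    have h2 : P.rk (P.pos i) ≤ P.rk (x - 2 * ε) := by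
      apply Finset.card_le_card
      intro j hj
      rw [Finset.mem_filter] at hj ⊢
      refine ⟨hj.1, ?_⟩
      have := hs j i hj.2
      linarith
    omega

theorem lab_lt' (h0 : 0 < ε) (hs : LSep P ε) (i : Fin (2 * h + 1)) (x : ℝ) :
    2 * P.rk (P.pos i) + 1 < P.rk x + P.rk (x - 2 * ε) ↔ P.pos i + 2 * ε < x := by
  constructor
  · intro hh
    by_contra hc
    have h2 := P.rk_mono (show x - 2 * ε ≤ P.pos i by linarith [not_lt.1 hc])
    have h1 : P.rk x ≤ P.rk (P.pos i) + 1 := by
      refine (P.rk_mono (not_lt.1 hc)).trans ?_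
      rw [P.rk_succ i (by linarith)]
      intro j hj
      have := hs i j hj.1
      linarith [hj.2]
    omega
  · intro hh
    have h1 := (P.rk_lt_iff i x).2 (by linarith)
    have h2 := (P.rk_lt_iff i (x - 2 * ε)).2 (by linarith)
    omega

/-- the cumulative masses at a point -/
theorem C_eq (h0 : 0 < ε) (hs : LSep P ε) (κ : Fin (2 * h + 1) → ℕ) (b : Bool) (x : ℝ) :
    (DK P κ ε).C b ((DK P κ ε).lab x) =
      ∑ i, ((if P.pos i < x then inn P κ i b else 0) +
        (if P.pos i + 2 * ε < x then P.mu i b - inn P κ i b else 0)) := by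
  show cK P κ b (P.rk x + P.rk (x - 2 * ε)) = _
  unfold cK
  apply Finset.sum_congr rfl
  intro i _
  simp only [lab_lt h0 hs, lab_lt' h0 hs]

/-- twice the mass of a leaf in a page, without the parity of `w` -/
noncomputable def m2 (P : OData h) (i : Fin (2 * h + 1)) (b : Bool) : ℤ :=
  if i = P.w then 0 else if P.pg i = b then 1 else 0

theorem two_mu (i : Fin (2 * h + 1)) (b : Bool) :
    2 * P.mu i b = 2 * (m2 P i b : ℝ) + if i = P.w then 1 else 0 := by
  unfold OData.mu m2
  by_cases h1 : i = P.w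
  · rw [if_pos h1, if_pos h1, if_pos h1]; norm_num
  · rw [if_neg h1, if_neg h1, if_neg h1]
    split_ifs <;> norm_num

theorem two_nin (i : Fin (2 * h + 1)) (b : Bool) :
    2 * P.nin i b = 2 * P.mu i b - if mp P i = b then 1 else 0 := by
  unfold OData.mu OData.nin mp
  by_cases h1 : i = P.w
  · rw [if_pos h1, if_pos h1, if_pos h1]
    cases b <;> simp
  · rw [if_neg h1, if_neg h1, if_neg h1]
    split_ifs <;> norm_num

/-- the marks -/
noncomputable def mk3 (P : OData h) (ε : ℝ) (a b c : Fin (2 * h + 1)) (q : Bool) (x : ℝ) : ℕ := by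
  classical
  exact ∑ z ∈ ({a, b, c} : Finset (Fin (2 * h + 1))), if x = P.pos z + ε ∧ mp P z = q then 1 else 0

theorem mass_parity (h0 : 0 < ε) (hs : LSep P ε) {L : List ℝ} (hn : Near P ε L)
    (a b c : Fin (2 * h + 1)) (q : Bool) {x : ℝ} (hx : x ∈ L) :
    ∃ n : ℤ, 2 * (DK P (sh3 a b c 1 1 1) ε).C q ((DK P (sh3 a b c 1 1 1) ε).lab x) =
      2 * n + (if P.pos P.w < x then 1 else 0) + (mk3 P ε a b c q x : ℝ) := by
  classical
  set κ := sh3 a b c 1 1 1 with hκ
  have hk : ∀ i, i ∈ ({a, b, c} : Finset (Fin (2 * h + 1))) → κ i = 1 := by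
    intro i hi
    simp only [Finset.mem_insert, Finset.mem_singleton] at hi
    rw [hκ]; unfold sh3
    split_ifs with h1 h2 h3
    · rfl
    · rfl
    · rfl
    · tauto
  have hk' : ∀ i, i ∉ ({a, b, c} : Finset (Fin (2 * h + 1))) → κ i = 2 := by
    intro i hi
    simp only [Finset.mem_insert, Finset.mem_singleton, not_or] at hi
    rw [hκ]; unfold sh3
    rw [if_neg hi.1, if_neg hi.2.1, if_neg hi.2.2]
  have key : ∀ i, ∃ n : ℤ, 2 * ((if P.pos i < x then inn P κ i q else 0) +
      (if P.pos i + 2 * ε < x then P.mu i q - inn P κ i q else 0)) =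
      2 * (n : ℝ) + (if i = P.w then (if P.pos P.w < x then 1 else 0) else 0) +
      (if i ∈ ({a, b, c} : Finset (Fin (2 * h + 1))) then
        (if x = P.pos i + ε ∧ mp P i = q then 1 else 0) else 0) := by
    intro i
    have hmu := two_mu (P := P) i q
    have hni := two_nin (P := P) i q
    rcases hn x hx i with h1 | h1 | h1
    · refine ⟨0, ?_⟩
      rw [if_neg (by rw [h1]; linarith), if_neg (by rw [h1]; linarith)]
      have e1 : (if i = P.w then (if P.pos P.w < x then (1 : ℝ) else 0) else 0) = 0 := by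
        split_ifs with h2 h3
        · rw [← h2, h1] at h3; linarith
        · rfl
        · rfl
      have e2 : (if i ∈ ({a, b, c} : Finset (Fin (2 * h + 1))) then
        (if x = P.pos i + ε ∧ mp P i = q then (1 : ℝ) else 0) else 0) = 0 := by
        split_ifs with h2 h3
        · exact absurd h3.1 (by rw [h1]; linarith)
        · rfl
        · rfl
      rw [e1, e2]; norm_num
    · rw [if_pos (show P.pos i < x by rw [h1]; linarith),
        if_neg (show ¬ P.pos i + 2 * ε < x by rw [h1]; linarith), add_zero]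
      have e1 : (if i = P.w then (if P.pos P.w < x then (1 : ℝ) else 0) else 0) =
          if i = P.w then 1 else 0 := by
        split_ifs with h2 h3
        · rfl
        · exact absurd (by rw [← h2, h1]; linarith) h3
        · rfl
      rw [e1]
      by_cases h2 : i ∈ ({a, b, c} : Finset (Fin (2 * h + 1)))
      · refine ⟨m2 P i q - (if mp P i = q then 1 else 0), ?_⟩
        have e3 : inn P κ i q = P.nin i q := by
          unfold inn
          rw [hk i h2, if_neg (by norm_num), if_pos rfl]
        rw [if_pos h2, e3, hni, hmu]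
        by_cases h3 : mp P i = q
        · rw [if_pos h3, if_pos h3, if_pos (show x = P.pos i + ε ∧ mp P i = q from ⟨h1, h3⟩)]
          push_cast; ring
        · rw [if_neg h3, if_neg h3,
            if_neg (show ¬ (x = P.pos i + ε ∧ mp P i = q) from fun hh => h3 hh.2)]
          push_cast; ring
      · refine ⟨m2 P i q, ?_⟩
        have e3 : inn P κ i q = P.mu i q := by
          unfold inn
          rw [hk' i h2, if_neg (by norm_num), if_neg (by norm_num)]
        rw [if_neg h2, e3, hmu]; ring
    · have e2 : (if i ∈ ({a, b, c} : Finset (Fin (2 * h + 1))) then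
        (if x = P.pos i + ε ∧ mp P i = q then (1 : ℝ) else 0) else 0) = 0 := by
        split_ifs with h2 h3
        · exfalso
          rw [h3.1, add_sub_cancel_left, abs_of_pos h0] at h1
          linarith
        · rfl
        · rfl
      rw [e2]
      rcases lt_abs.1 h1 with h2 | h2
      · refine ⟨m2 P i q, ?_⟩
        have h3 : P.pos i < x := by linarith
        have e1 : (if i = P.w then (if P.pos P.w < x then (1 : ℝ) else 0) else 0) =
            if i = P.w then 1 else 0 := by
          split_ifs with h4 h5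
          · rfl
          · exact absurd (by rw [← h4]; exact h3) h5
          · rfl
        rw [if_pos h3, if_pos (by linarith), e1]
        linarith
      · refine ⟨0, ?_⟩
        have h3 : x < P.pos i := by linarith
        have e1 : (if i = P.w then (if P.pos P.w < x then (1 : ℝ) else 0) else 0) = 0 := by
          split_ifs with h4 h5
          · rw [← h4] at h5; linarith
          · rfl
          · rfl
        rw [if_neg (by linarith), if_neg (by linarith), e1]
        norm_num
  choose n hn' using key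
  refine ⟨∑ i, n i, ?_⟩
  rw [C_eq h0 hs, Finset.mul_sum, Finset.sum_congr rfl fun i _ => hn' i,
    Finset.sum_add_distrib, Finset.sum_add_distrib, Finset.sum_ite_eq', if_pos (Finset.mem_univ _),
    Finset.sum_ite_mem, Finset.univ_inter, ← Finset.mul_sum]
  unfold mk3
  push_cast
  rfl

/-! ### the arcs -/

theorem labI_sum {ι : Type*} (s : Finset ι) (F : ι → Bool → ℝ → ℕ) (t : Bool) (L : List ℝ)
    (i : ℕ) : labI (fun q x => ∑ z ∈ s, F z q x) t L i = ∑ z ∈ s, labI (F z) t L i := by
  unfold labI lamk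
  rw [Finset.sum_comm]
  apply Finset.sum_congr rfl
  intro j _
  rw [Finset.sum_add_distrib]

open Classical in
theorem labI_one {L : List ℝ} (hc : CL L) {r : ℝ} (hr : r ∈ L) (hk : L.idxOf r % 2 = 1) (q : Bool) :
    ∀ i, i < L.length → labI (fun b x => if x = r ∧ q = b then 1 else 0) false L i =
      if L.idxOf r < i ∨ (L.idxOf r = i ∧ q = false) then 1 else 0 := by
  intro i
  induction i with
  | zero =>
    intro _
    rw [if_neg (by omega)]
    rfl
  | succ i ih =>
    intro hi
    have hi' : i < L.length := by omega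
    have e1 : labI (fun b x => if x = r ∧ q = b then 1 else 0) false L (i + 1) =
        labI (fun b x => if x = r ∧ q = b then 1 else 0) false L i +
        lamk (fun b x => if x = r ∧ q = b then 1 else 0) false L (pgk false i) (g L i) :=
      Finset.sum_range_succ _ _
    rw [e1, ih hi']
    unfold lamk
    rw [f_next hc false hi]
    have g1 : g L i = r ↔ i = L.idxOf r := by
      rw [← g_idx hr, g_inj_iff hc.nodup hi' (List.idxOf_lt_length_of_mem hr), g_idx hr]
    have g2 : g L (i + 1) = r ↔ i + 1 = L.idxOf r := by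
      rw [← g_idx hr, g_inj_iff hc.nodup hi (List.idxOf_lt_length_of_mem hr), g_idx hr]
    simp only [g1, g2]
    clear g1 g2 e1 ih
    generalize L.idxOf r = k at *
    rcases Nat.mod_two_eq_zero_or_one i with h2 | h2
    · have e2 : pgk false i = false := by unfold pgk; rw [if_pos h2]
      rw [e2]
      have n1 : i ≠ k := by omega
      by_cases h3 : i + 1 = k
      · subst h3
        cases q <;> simp
      · have : (k < i + 1 ∨ k = i + 1 ∧ q = false) ↔ (k < i ∨ k = i ∧ q = false) := by
          constructor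
          · rintro (h4 | h4)
            · left; omega
            · omega
          · rintro (h4 | h4)
            · left; omega
            · left; omega
        rw [if_congr this rfl rfl]
        simp [n1, h3]
    · have e2 : pgk false i = true := by unfold pgk; rw [if_neg (by omega)]; rfl
      rw [e2]
      have n1 : i + 1 ≠ k := by omega
      by_cases h3 : i = k
      · subst h3
        cases q <;> simp
      · have : (k < i + 1 ∨ k = i + 1 ∧ q = false) ↔ (k < i ∨ k = i ∧ q = false) := by
          constructor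
          · rintro (h4 | h4)
            · left; omega
            · omega
          · rintro (h4 | h4)
            · left; omega
            · omega
        rw [if_congr this rfl rfl]
        simp [n1, h3]

theorem sum_three {a b c : Fin (2 * h + 1)} (hab : a ≠ b) (hac : a ≠ c) (hbc : b ≠ c)
    {M : Type*} [AddCommMonoid M] (F : Fin (2 * h + 1) → M) :
    ∑ z ∈ ({a, b, c} : Finset (Fin (2 * h + 1))), F z = F a + F b + F c := by
  rw [Finset.sum_insert (by simp [hab, hac]), Finset.sum_insert (by simp [hbc]),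
    Finset.sum_singleton, add_assoc]

theorem total3 {L : List ℝ} {a b c : Fin (2 * h + 1)} (hab : a ≠ b) (hac : a ≠ c) (hbc : b ≠ c)
    (hL : ∀ z, z = a ∨ z = b ∨ z = c → P.pos z + ε ∈ L) :
    ∑ x ∈ L.toFinset, (mk3 P ε a b c true x + mk3 P ε a b c false x) = 3 := by
  classical
  unfold mk3
  have e1 : ∀ x, (∑ z ∈ ({a, b, c} : Finset (Fin (2 * h + 1))),
      if x = P.pos z + ε ∧ mp P z = true then 1 else 0) +
      (∑ z ∈ ({a, b, c} : Finset (Fin (2 * h + 1))),
      if x = P.pos z + ε ∧ mp P z = false then 1 else 0) =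
      ∑ z ∈ ({a, b, c} : Finset (Fin (2 * h + 1))), if x = P.pos z + ε then 1 else 0 := by
    intro x
    rw [← Finset.sum_add_distrib]
    apply Finset.sum_congr rfl
    intro z _
    cases mp P z <;> simp
  rw [Finset.sum_congr rfl fun x _ => e1 x, Finset.sum_comm]
  have e2 : ∀ z ∈ ({a, b, c} : Finset (Fin (2 * h + 1))),
      (∑ x ∈ L.toFinset, if x = P.pos z + ε then 1 else 0) = 1 := by
    intro z hz
    rw [Finset.sum_ite_eq', if_pos]
    apply List.mem_toFinset.2
    apply hL
    simpa using hz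
  rw [Finset.sum_congr rfl e2, sum_three hab hac hbc]

theorem arc_eq {T : List (Fin (2 * h + 1) × List ℝ)} (h0 : 0 < ε) (hc : CL (dbl ε T))
    (hsep : Sepd ε (pts T)) {a b c : Fin (2 * h + 1)} (hab : a ≠ b) (hac : a ≠ c) (hbc : b ≠ c)
    (hT : ∀ z, z = a ∨ z = b ∨ z = c → P.pos z ∈ pts T)
    (hL : ∀ z, z = a ∨ z = b ∨ z = c → P.pos z + ε ∈ dbl ε T) {x : ℝ} (hx : x ∈ dbl ε T) :
    labk (mk3 P ε a b c) false (dbl ε T) x = arc P ε T a b c x := by
  classical
  have e0 : mk3 P ε a b c = fun q x => ∑ z ∈ ({a, b, c} : Finset (Fin (2 * h + 1))),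
      (fun (z : Fin (2 * h + 1)) (q : Bool) (x : ℝ) =>
        if x = P.pos z + ε ∧ mp P z = q then 1 else 0) z q x := by
    funext q x
    unfold mk3
    apply Finset.sum_congr rfl
    intro z _
    congr
  have hi := List.idxOf_lt_length_of_mem hx
  unfold labk
  rw [e0, labI_sum, sum_three hab hac hbc]
  have e1 : ∀ z, z = a ∨ z = b ∨ z = c →
      ((labI (fun q x => if x = P.pos z + ε ∧ mp P z = q then 1 else 0) false (dbl ε T)
        ((dbl ε T).idxOf x) : ℕ) : ZMod 3) = if psd P ε T (mp P z) z x then 1 else 0 := by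
    intro z hz
    have h1 := labI_one hc (hL z hz) (dbl_odd h0 hsep (hT z hz) (hL z hz)) (mp P z) _ hi
    have h2 : ((dbl ε T).idxOf (P.pos z + ε) < (dbl ε T).idxOf x ∨
        ((dbl ε T).idxOf (P.pos z + ε) = (dbl ε T).idxOf x ∧ mp P z = false)) ↔
        psd P ε T (mp P z) z x := by
      unfold psd
      have : (dbl ε T).idxOf (P.pos z + ε) = (dbl ε T).idxOf x ↔ x = P.pos z + ε := by
        constructor
        · intro hh
          rw [← g_idx hx, ← hh, g_idx (hL z hz)]
        · intro hh; rw [hh]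
      rw [this]
    rw [h1]
    by_cases h3 : psd P ε T (mp P z) z x
    · rw [if_pos h3, if_pos (h2.2 h3)]; rfl
    · rw [if_neg h3, if_neg (fun hh => h3 (h2.1 hh))]; rfl
  push_cast
  have ea := e1 a (Or.inl rfl)
  have eb := e1 b (Or.inr (Or.inl rfl))
  have ec := e1 c (Or.inr (Or.inr rfl))
  unfold arc
  rw [← ea, ← eb, ← ec]

/-- **The parity law of the centre of the hexagon.** -/
theorem law_hex' {T : List (Fin (2 * h + 1) × List ℝ)} (h0 : 0 < ε) (hs : LSep P ε)
    (hn : Near P ε (dbl ε T)) (hsep : Sepd ε (pts T)) {a b c : Fin (2 * h + 1)} (hab : a ≠ b)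
    (hac : a ≠ c) (hbc : b ≠ c) (hT : ∀ z, z = a ∨ z = b ∨ z = c → P.pos z ∈ pts T)
    (hL : ∀ z, z = a ∨ z = b ∨ z = c → P.pos z + ε ∈ dbl ε T) {EO : ℝ → ℝ}
    (hE : Crv (DK P (sh3 a b c 1 1 1) ε) false (dbl ε T) EO) :
    H568.Law (cfg false (dbl ε T)) (upc false (dbl ε T)) EO (((h : ℝ) + 1 / 2) / 2)
      (lamk (mk3 P ε a b c) false (dbl ε T)) (arc P ε T a b c)
      (fun x => decide (x < P.pos P.w)) := by
  have hw : P.pos P.w ∉ dbl ε T := by
    intro hh
    rcases hn _ hh P.w with h1 | h1 | h1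
    · linarith
    · linarith
    · rw [sub_self, abs_zero] at h1; linarith
  have hM : 4 * (DK P (sh3 a b c 1 1 1) ε).M = 2 * ((h : ℤ) : ℝ) + 1 := by
    show 4 * (((h : ℝ) + 1 / 2) / 2) = _
    push_cast; ring
  have key := law_of_crv hE hw hM (total3 hab hac hbc hL)
    (fun q x hx => mass_parity h0 hs hn a b c q hx)
  refine ⟨key.cut, key.sym, key.par, ?_, key.tot⟩
  intro q x hx hb
  have hx' : x ∈ dbl ε T := List.mem_toFinset.1 hx
  have h1 := key.lab q x hx hb
  rw [cfg_f] at h1 ⊢
  rw [arc_eq h0 hE.cl hsep hab hac hbc hT hL hx',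
    arc_eq h0 hE.cl hsep hab hac hbc hT hL (f_mem hE.cl false q hx')] at h1
  exact h1

/-! ### sub-stars of a star -/

theorem leaf_in {S : List (Fin (2 * h + 1) × List ℝ)} (hS : IsStar P.pos S)
    (i : Fin (2 * h + 1)) : P.pos i ∈ pts S := by
  obtain ⟨q, hq, rfl⟩ := List.mem_map.1 (hS.full i)
  exact hS.leaf_mem' hq

theorem lsep_of_star {S : List (Fin (2 * h + 1) × List ℝ)} (hS : IsStar P.pos S) (h0 : 0 < ε)
    (hε : Sepd ε (pts S)) : LSep P ε := by
  intro i j hij
  have := hε.lt (leaf_in hS i) (leaf_in hS j) hij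
  linarith

theorem near_of_star {S T : List (Fin (2 * h + 1) × List ℝ)} (hS : IsStar P.pos S)
    (hT : T.Sublist S) (h0 : 0 < ε) (hε : Sepd ε (pts S)) : Near P ε (dbl ε T) := by
  intro x hx i
  obtain ⟨q, hq, y, hy, σ, hσ, rfl⟩ := mem_dbl hx
  rw [abs_of_pos h0] at hσ
  have hyS : y ∈ pts S := (pts_sublist hT).subset (List.mem_flatMap.2 ⟨q, hq, hy⟩)
  by_cases hyi : y = P.pos i
  · subst hyi
    rcases abs_eq h0.le |>.1 hσ with h1 | h1
    · right; left; rw [h1]
    · left; rw [h1, sub_eq_add_neg]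
  · right; right
    have h1 := hε y hyS _ (leaf_in hS i) hyi
    have h2 : |y - P.pos i| ≤ |y + σ - P.pos i| + |σ| := by
      have := abs_sub_abs_le_abs_sub (y - P.pos i) (-σ)
      rw [abs_neg] at this
      have e : y - P.pos i - -σ = y + σ - P.pos i := by ring
      rw [e] at this
      linarith
    linarith

theorem tip_in {T : List (Fin (2 * h + 1) × List ℝ)} {q : Fin (2 * h + 1) × List ℝ} (hq : q ∈ T)
    {l : List ℝ} (hl : q.2 = l ++ [P.pos q.1]) (ε : ℝ) : P.pos q.1 + ε ∈ dbl ε T := by
  unfold dbl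
  rw [List.mem_flatMap]
  refine ⟨q, hq, ?_⟩
  rw [hl, List.mem_append, List.mem_reverse, sh_append, sh_append, List.mem_append,
    List.mem_append]
  have h1 : Pst.sg l.length ε = ε ∨ Pst.sg l.length ε = -ε := by
    unfold Pst.sg
    rcases neg_one_pow_eq_or ℝ l.length with h1 | h1 <;> rw [h1] <;> simp
  rcases h1 with h1 | h1
  · right; right; rw [h1]; simp
  · left; right; rw [Pst.sg_neg, h1]; simp

/-- **The parity law for three arms `a`, `b`, `c` of a star** (`T` is a list of arms of the star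
`S` which contains `a`, `b`, `c`). -/
theorem law_hex {S T : List (Fin (2 * h + 1) × List ℝ)} (hS : IsStar P.pos S) (hT : T.Sublist S)
    (h0 : 0 < ε) (hε : Sepd ε (pts S)) {a b c : Fin (2 * h + 1) × List ℝ} (ha : a ∈ T)
    (hb : b ∈ T) (hc : c ∈ T) (hab : a.1 ≠ b.1) (hac : a.1 ≠ c.1) (hbc : b.1 ≠ c.1) {EO : ℝ → ℝ}
    (hE : Crv (DK P (sh3 a.1 b.1 c.1 1 1 1) ε) false (dbl ε T) EO) :
    H568.Law (cfg false (dbl ε T)) (upc false (dbl ε T)) EO (((h : ℝ) + 1 / 2) / 2)
      (lamk (mk3 P ε a.1 b.1 c.1) false (dbl ε T)) (arc P ε T a.1 b.1 c.1)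
      (fun x => decide (x < P.pos P.w)) := by
  have hpt : ∀ q ∈ T, P.pos q.1 ∈ pts T := by
    intro q hq
    obtain ⟨l, hl⟩ := hS.ends q (hT.subset hq)
    exact List.mem_flatMap.2 ⟨q, hq, by rw [hl]; simp⟩
  have htp : ∀ q ∈ T, P.pos q.1 + ε ∈ dbl ε T := by
    intro q hq
    obtain ⟨l, hl⟩ := hS.ends q (hT.subset hq)
    exact tip_in hq hl ε
  refine law_hex' h0 (lsep_of_star hS h0 hε) (near_of_star hS hT h0 hε)
    (hε.mono fun p hp => (pts_sublist hT).subset hp) hab hac hbc ?_ ?_ hE
  · rintro z (rfl | rfl | rfl)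
    · exact hpt a ha
    · exact hpt b hb
    · exact hpt c hc
  · rintro z (rfl | rfl | rfl)
    · exact htp a ha
    · exact htp b hb
    · exact htp c hc

/-- the same for the downward crossings (the points `p - ε`, even places of the list) -/
theorem law_hex_down {S T : List (Fin (2 * h + 1) × List ℝ)} (hS : IsStar P.pos S)
    (hT : T.Sublist S) (h0 : 0 < ε) (hε : Sepd ε (pts S)) {a b c : Fin (2 * h + 1) × List ℝ}
    (ha : a ∈ T) (hb : b ∈ T) (hc : c ∈ T) (hab : a.1 ≠ b.1) (hac : a.1 ≠ c.1)
    (hbc : b.1 ≠ c.1) {EO : ℝ → ℝ}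
    (hE : Crv (DK P (sh3 a.1 b.1 c.1 1 1 1) ε) false (dbl ε T) EO) :
    H568.Law (cfg false (dbl ε T)) (fun x => !upc false (dbl ε T) x) EO (((h : ℝ) + 1 / 2) / 2)
      (lamk (mk3 P ε a.1 b.1 c.1) false (dbl ε T)) (fun x => - arc P ε T a.1 b.1 c.1 x)
      (fun x => decide (x < P.pos P.w)) := by
  have htp : ∀ q ∈ T, P.pos q.1 + ε ∈ dbl ε T := by
    intro q hq
    obtain ⟨l, hl⟩ := hS.ends q (hT.subset hq)
    exact tip_in hq hl ε
  refine law_neg hE.cl (law_hex hS hT h0 hε ha hb hc hab hac hbc hE) (total3 hab hac hbc ?_)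
  rintro z (rfl | rfl | rfl)
  · exact htp a ha
  · exact htp b hb
  · exact htp c hc

end

end Vale.Agent.P040.H177
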