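import Vale.Agent.P040.H251.Plus
import Vale.Agent.P040.H568.TripodDef

/-!
# The parity law of a curve with three marks (P040, odd layer, helper177)

A curve given as a list, with three marks (points of the curve where the mass of one page jumps by
a half) and the cut `w`. The chords next to the marks carry the marks; the arcs of the curve between
the marks are labelled mod 3.
-/

set_option autoImplicit false

namespace Vale.Agent.P040.H177

open P040H251 Vale.Agent.P040.H906

section

variable {α : Type*} [LinearOrder α] [Inhabited α]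

/-- the marks on the chord of the page `b` at `x` -/
def lamk (mk : Bool → α → ℕ) (s : Bool) (L : List α) (b : Bool) (x : α) : ℕ :=
  mk b x + mk b (fO s L b x)

/-- the number of marks on the chords before the place `i` -/
def labI (mk : Bool → α → ℕ) (s : Bool) (L : List α) (i : ℕ) : ℕ :=
  ∑ j ∈ Finset.range i, lamk mk s L (pgk s j) (g L j)

/-- the arc of the point `x` -/
def labk (mk : Bool → α → ℕ) (s : Bool) (L : List α) (x : α) : ZMod 3 :=
  (labI mk s L (L.idxOf x) : ZMod 3)

variable {mk : Bool → α → ℕ} {s : Bool} {L : List α}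

theorem lamk_sym (h : CL L) (b : Bool) {x : α} (hx : x ∈ L) :
    lamk mk s L b (fO s L b x) = lamk mk s L b x := by
  unfold lamk
  rw [f_f h s b hx, add_comm]

/-- the chord from the last point to the first one -/
theorem f_last (h : CL L) (s : Bool) {k : ℕ} (hk : k + 1 = L.length) :
    fO s L (pgk s k) (g L k) = g L 0 := by
  have hk' : k < L.length := by omega
  have he := h.even
  have hk2 : k % 2 = 1 := by omega
  rw [f_g h s _ hk']
  unfold pgk
  rw [if_neg (by omega)]
  have e : lI L.length k = 0 := by unfold lI; rw [if_pos hk2, if_pos hk]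
  cases s
  · show g L (lI L.length k) = _; rw [e]
  · show g L (lI L.length k) = _; rw [e]

theorem sum_g (hn : L.Nodup) (F : α → ℕ) :
    ∑ j ∈ Finset.range L.length, F (g L j) = ∑ x ∈ L.toFinset, F x := by
  refine Finset.sum_bij (fun j _ => g L j) ?_ ?_ ?_ ?_
  · intro j hj
    exact List.mem_toFinset.2 (g_mem (Finset.mem_range.1 hj))
  · intro i hi j hj hij
    exact g_inj hn (Finset.mem_range.1 hi) (Finset.mem_range.1 hj) hij
  · intro x hx
    obtain ⟨i, hi, rfl⟩ := ex_idx (List.mem_toFinset.1 hx)
    exact ⟨i, Finset.mem_range.2 hi, rfl⟩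
  · intro j hj
    rfl

/-- the partner function exchanges the colours -/
theorem sum_flip (h : CL L) (b : Bool) (F : α → ℕ) :
    ∑ x ∈ L.toFinset.filter (fun x => upc s L x = true), F (fO s L b x) =
      ∑ x ∈ L.toFinset.filter (fun x => upc s L x = false), F x := by
  refine Finset.sum_bij (fun x _ => fO s L b x) ?_ ?_ ?_ ?_
  · intro x hx
    rw [Finset.mem_filter, List.mem_toFinset] at hx
    rw [Finset.mem_filter, List.mem_toFinset]
    refine ⟨f_mem h s b hx.1, ?_⟩
    have := colOK_upc (s := s) h s b x (List.mem_toFinset.2 hx.1)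
    rw [cfg_f] at this
    rw [this, hx.2]; rfl
  · intro x hx y hy hxy
    rw [Finset.mem_filter, List.mem_toFinset] at hx hy
    rw [← f_f h s b hx.1, ← f_f h s b hy.1]
    exact congrArg _ hxy
  · intro y hy
    rw [Finset.mem_filter, List.mem_toFinset] at hy
    refine ⟨fO s L b y, ?_, f_f h s b hy.1⟩
    rw [Finset.mem_filter, List.mem_toFinset]
    refine ⟨f_mem h s b hy.1, ?_⟩
    have := colOK_upc (s := s) h s b y (List.mem_toFinset.2 hy.1)
    rw [cfg_f] at this
    rw [this, hy.2]; rfl
  · intro x hx
    rfl

omit [Inhabited α] in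
theorem sum_split (s : Bool) (L : List α) (F : α → ℕ) :
    ∑ x ∈ L.toFinset, F x = ∑ x ∈ L.toFinset.filter (fun x => upc s L x = true), F x +
      ∑ x ∈ L.toFinset.filter (fun x => upc s L x = false), F x := by
  rw [← Finset.sum_filter_add_sum_filter_not L.toFinset (fun x => upc s L x = true)]
  congr 1
  apply Finset.sum_congr
  · apply Finset.filter_congr
    intro x _
    simp
  · intro _ _; rfl

/-- the total number of marks -/
theorem sum_lamk (h : CL L) (mk : Bool → α → ℕ) (s : Bool) :
    ∑ x ∈ L.toFinset.filter (fun x => upc s L x = true),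
      (lamk mk s L true x + lamk mk s L false x) =
      ∑ x ∈ L.toFinset, (mk true x + mk false x) := by
  unfold lamk
  rw [Finset.sum_add_distrib, Finset.sum_add_distrib, Finset.sum_add_distrib]
  rw [sum_flip h true (mk true), sum_flip h false (mk false)]
  rw [Finset.sum_add_distrib, sum_split s L (mk true), sum_split s L (mk false)]

theorem labI_total (h : CL L) (mk : Bool → α → ℕ) (s : Bool) :
    labI mk s L L.length = ∑ x ∈ L.toFinset, (mk true x + mk false x) := by
  rw [← sum_lamk h mk s]
  unfold labI
  have e1 : ∑ j ∈ Finset.range L.length, lamk mk s L (pgk s j) (g L j) =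
      ∑ j ∈ Finset.range L.length, (fun x => lamk mk s L (upc s L x) x) (g L j) := by
    apply Finset.sum_congr rfl
    intro j hj
    show _ = lamk mk s L (upc s L (g L j)) (g L j)
    rw [upc_g h.nodup (Finset.mem_range.1 hj)]
  rw [e1, sum_g h.nodup (fun x => lamk mk s L (upc s L x) x), sum_split s L, Finset.sum_add_distrib]
  congr 1
  · apply Finset.sum_congr rfl
    intro x hx
    rw [Finset.mem_filter] at hx
    show lamk mk s L (upc s L x) x = _
    rw [hx.2]
  · rw [← sum_flip h false]
    apply Finset.sum_congr rfl
    intro x hx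
    rw [Finset.mem_filter, List.mem_toFinset] at hx
    have := colOK_upc (s := s) h s false x (List.mem_toFinset.2 hx.1)
    rw [cfg_f, hx.2] at this
    show lamk mk s L (upc s L (fO s L false x)) (fO s L false x) = _
    rw [this]
    exact lamk_sym h false hx.1

theorem labk_next (h : CL L) (htot : ∑ x ∈ L.toFinset, (mk true x + mk false x) = 3)
    {b : Bool} {x : α} (hx : x ∈ L) (hb : upc s L x = b) :
    labk mk s L (fO s L b x) = labk mk s L x + (lamk mk s L b x : ZMod 3) := by
  obtain ⟨i, hi, rfl⟩ := ex_idx hx
  rw [upc_g h.nodup hi] at hb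
  subst hb
  have e1 : labI mk s L (i + 1) = labI mk s L i + lamk mk s L (pgk s i) (g L i) :=
    Finset.sum_range_succ _ _
  rcases Nat.lt_or_ge (i + 1) L.length with h1 | h1
  · rw [f_next h s h1]
    unfold labk
    rw [idx_g h.nodup h1, idx_g h.nodup hi, e1]
    push_cast
    rfl
  · have h2 : i + 1 = L.length := by omega
    rw [f_last h s h2]
    unfold labk
    rw [idx_g h.nodup h.pos, idx_g h.nodup hi]
    have e2 : labI mk s L (i + 1) = 3 := by rw [h2, labI_total h, htot]
    have e3 : ((labI mk s L i + lamk mk s L (pgk s i) (g L i) : ℕ) : ZMod 3) = 0 := by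
      rw [← e1, e2]; rfl
    push_cast at e3
    rw [e3]
    simp [labI]

/-- **The parity law** of a curve with three marks: the masses are in `(1/2) ℤ` with the parity of
the cut `w` and of the marks. -/
theorem law_of_crv {D : Dat α} {E : α → ℝ} (h : Crv D s L E) {w : α} (hw : w ∉ L) {k : ℤ}
    (hM : 4 * D.M = 2 * k + 1) (htot : ∑ x ∈ L.toFinset, (mk true x + mk false x) = 3)
    (hC : ∀ b, ∀ x ∈ L, ∃ n : ℤ, 2 * D.C b (D.lab x) =
      2 * n + (if w < x then 1 else 0) + (mk b x : ℝ)) :
    H568.Law (cfg s L) (upc s L) E D.M (lamk mk s L) (labk mk s L) (fun x => decide (x < w)) where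
  cut := by
    intro x y hxy hy
    rw [decide_eq_true_eq] at hy ⊢
    exact lt_of_le_of_lt hxy hy
  sym := by
    intro b x hx
    exact lamk_sym h.cl b (List.mem_toFinset.1 hx)
  par := by
    intro b x hx
    have hx' : x ∈ L := List.mem_toFinset.1 hx
    have hf := f_mem h.cl s b hx'
    have hne := f_ne h.cl s b hx'
    obtain ⟨n, hn⟩ := hC b x hx'
    obtain ⟨n', hn'⟩ := hC b _ hf
    have hi := h.inc b x hx'
    have hxw : x ≠ w := fun hh => hw (hh ▸ hx')
    have hfw : fO s L b x ≠ w := fun hh => hw (hh ▸ hf)
    have e1 : (cfg s L).dl E b x = sg b * (E (fO s L b x) - E x) := rfl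
    rw [e1, hi]
    have e2 : ((lamk mk s L b x : ℕ) : ℝ) = (mk b x : ℝ) + (mk b (fO s L b x) : ℝ) := by
      unfold lamk; push_cast; ring
    rw [e2, cfg_f]
    unfold H568.wn
    simp only [decide_eq_true_eq, decide_eq_false_iff_not]
    by_cases hlt : x < fO s L b x
    · refine ⟨n' - n - mk b x, ?_⟩
      rw [if_pos hlt, if_pos hlt]
      rcases lt_or_gt_of_ne hxw with h1 | h1
      · rcases lt_or_gt_of_ne hfw with h2 | h2
        · rw [if_neg (not_lt.2 h1.le)] at hn
          rw [if_neg (not_lt.2 h2.le)] at hn'
          rw [if_neg (fun hh => hh.2 h2)]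
          push_cast
          linarith
        · rw [if_neg (not_lt.2 h1.le)] at hn
          rw [if_pos h2] at hn'
          rw [if_pos ⟨h1, not_lt.2 h2.le⟩]
          push_cast
          linarith
      · have h2 : w < fO s L b x := h1.trans hlt
        rw [if_pos h1] at hn
        rw [if_pos h2] at hn'
        rw [if_neg (fun hh => absurd hh.1 (not_lt.2 h1.le))]
        push_cast
        linarith
    · have hlt' : fO s L b x < x := lt_of_le_of_ne (not_lt.1 hlt) hne
      refine ⟨n' - n - mk b x + k, ?_⟩
      rw [if_neg hlt, if_neg hlt]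
      rcases lt_or_gt_of_ne hxw with h1 | h1
      · have h2 : fO s L b x < w := hlt'.trans h1
        rw [if_neg (not_lt.2 h1.le)] at hn
        rw [if_neg (not_lt.2 h2.le)] at hn'
        rw [if_neg (fun hh => hh.2 h1)]
        push_cast
        linarith
      · rcases lt_or_gt_of_ne hfw with h2 | h2
        · rw [if_pos h1] at hn
          rw [if_neg (not_lt.2 h2.le)] at hn'
          rw [if_pos ⟨h2, not_lt.2 h1.le⟩]
          push_cast
          linarith
        · rw [if_pos h1] at hn
          rw [if_pos h2] at hn'
          rw [if_neg (fun hh => absurd hh.1 (not_lt.2 h2.le))]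
          push_cast
          linarith
  lab := by
    intro b x hx hb
    exact labk_next h.cl htot (List.mem_toFinset.1 hx) hb
  tot := by
    rw [cfg_S, sum_lamk h.cl mk s, htot]

/-- the total number of marks, at the downward crossings -/
theorem sum_lamk' (h : CL L) (mk : Bool → α → ℕ) (s : Bool) :
    ∑ x ∈ L.toFinset.filter (fun x => upc s L x = false),
      (lamk mk s L true x + lamk mk s L false x) =
      ∑ x ∈ L.toFinset, (mk true x + mk false x) := by
  rw [← sum_lamk h mk s, Finset.sum_add_distrib, Finset.sum_add_distrib,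
    ← sum_flip h true (lamk mk s L true), ← sum_flip h false (lamk mk s L false)]
  congr 1
  · apply Finset.sum_congr rfl
    intro x hx
    exact lamk_sym h true (List.mem_toFinset.1 (Finset.mem_filter.1 hx).1)
  · apply Finset.sum_congr rfl
    intro x hx
    exact lamk_sym h false (List.mem_toFinset.1 (Finset.mem_filter.1 hx).1)

/-- the same law for the downward crossings (the orientation is reversed) -/
theorem law_neg {E₀ : α → ℝ} {M₀ : ℝ} {lab : α → ZMod 3} {wl : α → Bool} (h : CL L)
    (hL : H568.Law (cfg s L) (upc s L) E₀ M₀ (lamk mk s L) lab wl)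
    (htot : ∑ x ∈ L.toFinset, (mk true x + mk false x) = 3) :
    H568.Law (cfg s L) (fun x => !upc s L x) E₀ M₀ (lamk mk s L) (fun x => - lab x) wl where
  cut := hL.cut
  sym := hL.sym
  par := hL.par
  lab := by
    intro b x hx hb
    have hx' : x ∈ L := List.mem_toFinset.1 hx
    have h1 := colOK_upc (s := s) h s b x hx
    have h2 : upc s L (fO s L b x) = b := by
      rw [cfg_f] at h1
      rw [h1]
      exact hb
    have h3 := hL.lab b (fO s L b x) (List.mem_toFinset.2 (f_mem h s b hx')) h2
    rw [cfg_f, f_f h s b hx', lamk_sym h b hx'] at h3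
    rw [cfg_f, h3]
    ring
  tot := by
    have e : (cfg s L).S.filter (fun x => (!upc s L x) = true) =
        L.toFinset.filter (fun x => upc s L x = false) := by
      apply Finset.filter_congr
      intro x _
      simp
    rw [e, sum_lamk' h mk s, htot]

end

end Vale.Agent.P040.H177
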