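import Mathlib.Data.Real.Basic
import Mathlib.Data.Set.Finite.Basic
import Mathlib.Algebra.Group.Basic
import Mathlib.Tactic

/-!
# The potential lemma for trees of page arcs

A tree on the spine `ℝ` is built by adding arcs from an old point to a new point, in the upper or
in the lower page. Its complement is simply connected: every labelling of the intervals of the
spine by a group is a coboundary.
-/

namespace Vale.Agent.P040.H177

open Set

/-- `x` is strictly between the ends of `e`. -/
def Ins (e : ℝ × ℝ) (x : ℝ) : Prop := min e.1 e.2 < x ∧ x < max e.1 e.2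

/-- No arc of `A` separates `x` and `y`. -/
def NS (A : Set (ℝ × ℝ)) (x y : ℝ) : Prop := ∀ e ∈ A, (Ins e x ↔ Ins e y)

/-- `x` and `y` (not in `P`) lie in the same interval of the circle `ℝ ∪ {∞}` minus `P`. -/
def SI (P : Set ℝ) (x y : ℝ) : Prop :=
  (∀ p ∈ P, (p < x ↔ p < y)) ∨ (∀ p ∈ P, p < x ∧ y < p) ∨ (∀ p ∈ P, x < p ∧ p < y)

theorem NS.refl (A : Set (ℝ × ℝ)) (x : ℝ) : NS A x x := fun _ _ => Iff.rfl

theorem NS.symm {A : Set (ℝ × ℝ)} {x y : ℝ} (h : NS A x y) : NS A y x := fun e he => (h e he).symm

theorem NS.trans {A : Set (ℝ × ℝ)} {x y z : ℝ} (h : NS A x y) (h' : NS A y z) : NS A x z :=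
  fun e he => (h e he).trans (h' e he)

theorem NS.mono {A B : Set (ℝ × ℝ)} {x y : ℝ} (h : NS B x y) (hAB : A ⊆ B) : NS A x y :=
  fun e he => h e (hAB he)

theorem SI.symm {P : Set ℝ} {x y : ℝ} (h : SI P x y) : SI P y x := by
  rcases h with h | h | h
  · exact Or.inl fun p hp => (h p hp).symm
  · exact Or.inr (Or.inr fun p hp => (h p hp).symm)
  · exact Or.inr (Or.inl fun p hp => (h p hp).symm)

theorem SI.refl (P : Set ℝ) (x : ℝ) : SI P x x := Or.inl fun _ _ => Iff.rfl

theorem SI.trans {P : Set ℝ} (hP : P.Nonempty) {x y z : ℝ} (h : SI P x y) (h' : SI P y z)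
    (hx : x ∉ P) (_hy : y ∉ P) (hz : z ∉ P) : SI P x z := by
  have gt : ∀ {w : ℝ}, w ∉ P → ∀ p ∈ P, ¬ p < w → w < p := by
    intro w hw p hp h
    exact lt_of_le_of_ne (not_lt.1 h) (fun h2 => hw (h2 ▸ hp))
  obtain ⟨p0, hp0⟩ := hP
  rcases h with h | h | h <;> rcases h' with h' | h' | h'
  · exact Or.inl fun p hp => (h p hp).trans (h' p hp)
  · exact Or.inr (Or.inl fun p hp => ⟨(h p hp).2 (h' p hp).1, (h' p hp).2⟩)
  · refine Or.inr (Or.inr fun p hp => ⟨gt hx p hp fun h2 => ?_, (h' p hp).2⟩)
    exact absurd ((h p hp).1 h2) (not_lt.2 (h' p hp).1.le)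
  · refine Or.inr (Or.inl fun p hp => ⟨(h p hp).1, gt hz p hp fun h2 => ?_⟩)
    exact absurd ((h' p hp).2 h2) (not_lt.2 (h p hp).2.le)
  · exact absurd (h p0 hp0).2 (not_lt.2 (h' p0 hp0).1.le)
  · exact Or.inl fun p hp => ⟨fun _ => (h' p hp).2, fun _ => (h p hp).1⟩
  · exact Or.inr (Or.inr fun p hp => ⟨(h p hp).1, (h' p hp).1 (h p hp).2⟩)
  · exact Or.inl fun p hp => ⟨fun h2 => absurd h2 (not_lt.2 (h p hp).1.le),
      fun h2 => absurd h2 (not_lt.2 (h' p hp).2.le)⟩
  · exact absurd (h p0 hp0).2 (not_lt.2 (h' p0 hp0).1.le)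

/-- Points of one interval are not separated. -/
theorem SI.ins {P : Set ℝ} {x y : ℝ} (h : SI P x y) (hx : x ∉ P) (hy : y ∉ P) {e : ℝ × ℝ}
    (h1 : e.1 ∈ P) (h2 : e.2 ∈ P) : Ins e x ↔ Ins e y := by
  have m1 : min e.1 e.2 ∈ P := by rcases min_choice e.1 e.2 with h | h <;> rw [h] <;> assumption
  have m2 : max e.1 e.2 ∈ P := by rcases max_choice e.1 e.2 with h | h <;> rw [h] <;> assumption
  unfold Ins
  rcases h with h | h | h
  · have e1 := h _ m1
    have e2 := h _ m2
    have gx : x < max e.1 e.2 ↔ ¬ max e.1 e.2 < x := by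
      constructor
      · exact fun h => not_lt.2 h.le
      · exact fun h => lt_of_le_of_ne (not_lt.1 h) (fun h2 => hx (h2 ▸ m2))
    have gy : y < max e.1 e.2 ↔ ¬ max e.1 e.2 < y := by
      constructor
      · exact fun h => not_lt.2 h.le
      · exact fun h => lt_of_le_of_ne (not_lt.1 h) (fun h2 => hy (h2 ▸ m2))
    rw [gx, gy, e1, e2]
  · constructor
    · rintro ⟨-, h3⟩
      exact absurd (h _ m2).1 (not_lt.2 h3.le)
    · rintro ⟨h3, -⟩
      exact absurd (h _ m1).2 (not_lt.2 h3.le)
  · constructor
    · rintro ⟨h3, -⟩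
      exact absurd (h _ m1).1 (not_lt.2 h3.le)
    · rintro ⟨-, h3⟩
      exact absurd (h _ m2).2 (not_lt.2 h3.le)

/-- A tree of page arcs, built arc by arc: `P` the points, `U` the upper, `D` the lower arcs. -/
inductive Tree : Set ℝ → Set (ℝ × ℝ) → Set (ℝ × ℝ) → Prop
  | pt (c : ℝ) : Tree {c} ∅ ∅
  | up {P : Set ℝ} {U D : Set (ℝ × ℝ)} {p q : ℝ} : Tree P U D → p ∈ P → q ∉ P →
      Tree (insert q P) (insert (p, q) U) D
  | dn {P : Set ℝ} {U D : Set (ℝ × ℝ)} {p q : ℝ} : Tree P U D → p ∈ P → q ∉ P →
      Tree (insert q P) U (insert (p, q) D)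

theorem Tree.finite {P : Set ℝ} {U D : Set (ℝ × ℝ)} (h : Tree P U D) : P.Finite := by
  induction h with
  | pt c => exact finite_singleton c
  | up _ _ _ ih => exact ih.insert _
  | dn _ _ _ ih => exact ih.insert _

theorem Tree.nonempty {P : Set ℝ} {U D : Set (ℝ × ℝ)} (h : Tree P U D) : P.Nonempty := by
  induction h with
  | pt c => exact singleton_nonempty c
  | up _ _ _ ih => exact ih.mono (subset_insert _ _)
  | dn _ _ _ ih => exact ih.mono (subset_insert _ _)

theorem Tree.swap {P : Set ℝ} {U D : Set (ℝ × ℝ)} (h : Tree P U D) : Tree P D U := by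
  induction h with
  | pt c => exact Tree.pt c
  | up _ h1 h2 ih => exact Tree.dn ih h1 h2
  | dn _ h1 h2 ih => exact Tree.up ih h1 h2

theorem Tree.ends_up {P : Set ℝ} {U D : Set (ℝ × ℝ)} (h : Tree P U D) :
    ∀ e ∈ U, e.1 ∈ P ∧ e.2 ∈ P := by
  induction h with
  | pt c => intro e he; exact absurd he (by simp)
  | up _ h1 h2 ih =>
    intro e he
    rcases he with rfl | he
    · exact ⟨mem_insert_of_mem _ h1, mem_insert _ _⟩
    · exact ⟨mem_insert_of_mem _ (ih e he).1, mem_insert_of_mem _ (ih e he).2⟩
  | dn _ h1 h2 ih =>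
    intro e he
    exact ⟨mem_insert_of_mem _ (ih e he).1, mem_insert_of_mem _ (ih e he).2⟩

theorem Tree.ends_dn {P : Set ℝ} {U D : Set (ℝ × ℝ)} (h : Tree P U D) :
    ∀ e ∈ D, e.1 ∈ P ∧ e.2 ∈ P := h.swap.ends_up

/-- The existence of potentials. -/
def HasPot (P : Set ℝ) (U D : Set (ℝ × ℝ)) : Prop :=
  ∀ (G : Type) [Group G] (g : ℝ → G), (∀ x y, x ∉ P → y ∉ P → SI P x y → g x = g y) →
    ∃ u : ℝ → G, (∀ x y, x ∉ P → y ∉ P → NS U x y → u x = u y) ∧
      (∀ x y, x ∉ P → y ∉ P → NS D x y → u x * g x = u y * g y)

theorem HasPot.swap {P : Set ℝ} {U D : Set (ℝ × ℝ)} (h : HasPot P U D) : HasPot P D U := by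
  intro G _ g hg
  obtain ⟨u, h1, h2⟩ := h G (fun x => (g x)⁻¹) (fun x y hx hy hxy => by
    show (g x)⁻¹ = (g y)⁻¹
    rw [hg x y hx hy hxy])
  refine ⟨fun x => u x * (g x)⁻¹, h2, ?_⟩
  intro x y hx hy hxy
  simpa using h1 x y hx hy hxy

/-- Points close to `q` on both sides. -/
theorem exists_near {P : Set ℝ} (hP : P.Finite) (q : ℝ) : ∃ a b : ℝ, a < q ∧ q < b ∧
    (∀ r ∈ P, r < q → r < a) ∧ (∀ r ∈ P, q < r → b < r) := by
  have h1 : ∃ a, a < q ∧ ∀ r ∈ P, r < q → r < a := by
    have hf : (P ∩ Iio q).Finite := hP.inter_of_left _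
    by_cases hne : (P ∩ Iio q).Nonempty
    · obtain ⟨s, hs, hmax⟩ := exists_max_image _ id hf hne
      refine ⟨(s + q) / 2, by linarith [hs.2.out], ?_⟩
      intro r hr hrq
      have := hmax r ⟨hr, hrq⟩
      simp only [id] at this
      linarith [hs.2.out]
    · refine ⟨q - 1, by linarith, ?_⟩
      intro r hr hrq
      exact absurd ⟨r, hr, hrq⟩ hne
  have h2 : ∃ b, q < b ∧ ∀ r ∈ P, q < r → b < r := by
    have hf : (P ∩ Ioi q).Finite := hP.inter_of_left _
    by_cases hne : (P ∩ Ioi q).Nonempty
    · obtain ⟨s, hs, hmin⟩ := exists_min_image _ id hf hne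
      refine ⟨(s + q) / 2, by linarith [hs.2.out], ?_⟩
      intro r hr hrq
      have := hmin r ⟨hr, hrq⟩
      simp only [id] at this
      linarith [hs.2.out]
    · refine ⟨q + 1, by linarith, ?_⟩
      intro r hr hrq
      exact absurd ⟨r, hr, hrq⟩ hne
  obtain ⟨a, ha, ha'⟩ := h1
  obtain ⟨b, hb, hb'⟩ := h2
  exact ⟨a, b, ha, hb, ha', hb'⟩

/-- The inductive step. -/
theorem HasPot.up {P : Set ℝ} {U D : Set (ℝ × ℝ)} (h : HasPot P U D) (hP : P.Finite)
    (hU : ∀ e ∈ U, e.1 ∈ P ∧ e.2 ∈ P) {p q : ℝ} (hp : p ∈ P) (hq : q ∉ P) :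
    HasPot (insert q P) (insert (p, q) U) D := by
  classical
  intro G _ g' hg'
  have hpq : p ≠ q := fun h => hq (h ▸ hp)
  -- points near `q`
  obtain ⟨qi, qo, hqi, hqo, hi1, ho1, hi2, ho2⟩ : ∃ qi qo : ℝ, Ins (p, q) qi ∧ ¬ Ins (p, q) qo ∧
      qi ≠ q ∧ qo ≠ q ∧ (∀ r ∈ P, (r < qi ↔ r < q) ∧ r ≠ qi) ∧
      (∀ r ∈ P, (r < qo ↔ r < q) ∧ r ≠ qo) := by
    obtain ⟨a, b, ha, hb, ha', hb'⟩ := exists_near hP q
    have Ha : ∀ r ∈ P, (r < a ↔ r < q) ∧ r ≠ a := by
      intro r hr
      refine ⟨⟨fun h => h.trans ha, ha' r hr⟩, ?_⟩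
      rintro rfl
      exact lt_irrefl _ (ha' _ hr ha)
    have Hb : ∀ r ∈ P, (r < b ↔ r < q) ∧ r ≠ b := by
      intro r hr
      have hrq : r ≠ q := fun h => hq (h ▸ hr)
      refine ⟨⟨fun h => ?_, fun h => h.trans hb⟩, ?_⟩
      · by_contra h2
        exact lt_asymm h (hb' r hr (lt_of_le_of_ne (not_lt.1 h2) (Ne.symm hrq)))
      · rintro rfl
        exact lt_irrefl _ (hb' _ hr hb)
    rcases lt_or_gt_of_ne hpq with h1 | h1
    · refine ⟨a, b, ⟨?_, ?_⟩, ?_, ha.ne, hb.ne', Ha, Hb⟩
      · simp only [min_eq_left h1.le]; exact ha' p hp h1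
      · simp only [max_eq_right h1.le]; exact ha
      · rintro ⟨-, h3⟩
        simp only [max_eq_right h1.le] at h3
        exact lt_asymm h3 hb
    · refine ⟨b, a, ⟨?_, ?_⟩, ?_, hb.ne', ha.ne, Hb, Ha⟩
      · simp only [min_eq_right h1.le]; exact hb
      · simp only [max_eq_left h1.le]; exact hb' p hp h1
      · rintro ⟨h3, -⟩
        simp only [min_eq_right h1.le] at h3
        exact lt_asymm h3 ha
  have hqiP : qi ∉ insert q P := by
    rintro (h1 | h1)
    · exact hi1 h1
    · exact (hi2 _ h1).2 rfl
  have hqoP : qo ∉ insert q P := by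
    rintro (h1 | h1)
    · exact ho1 h1
    · exact (ho2 _ h1).2 rfl
  set c : G := g' qo * (g' qi)⁻¹ with hc
  set g : ℝ → G := fun x => if x = q then g' qo else
    if NS U x q ∧ Ins (p, q) x then c * g' x else g' x with hgdef
  have hPne : P.Nonempty := ⟨p, hp⟩
  -- inside and outside points of the interval of `q`
  have key1 : ∀ z, z ∉ P → SI P z q → g z = g' qo := by
    intro z hz hzq
    by_cases hz1 : z = q
    · simp [hgdef, hz1]
    have hzP : z ∉ insert q P := by
      rintro (h1 | h1)
      · exact hz1 h1
      · exact hz h1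
    have hns : NS U z q := fun e he => hzq.ins hz hq (hU e he).1 (hU e he).2
    by_cases hins : Ins (p, q) z
    · have h1 : SI (insert q P) z qi := by
        have h2 : ∀ r ∈ P, (r < z ↔ r < q) := by
          rcases hzq with h3 | h3 | h3
          · exact h3
          · have h4 := h3 p hp
            exact absurd hins.2 (by
              simp only [not_lt]
              rw [max_eq_left h4.2.le]; exact h4.1.le)
          · have h4 := h3 p hp
            exact absurd hins.1 (by
              simp only [not_lt]
              rw [min_eq_left h4.2.le]; exact h4.1.le)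
        left
        intro r hr
        rcases hr with rfl | hr
        · rcases lt_or_gt_of_ne hpq with h5 | h5
          · have e1 := hins.2
            have e2 := hqi.2
            simp only [max_eq_right h5.le] at e1 e2
            exact ⟨fun h => absurd h (not_lt.2 e1.le), fun h => absurd h (not_lt.2 e2.le)⟩
          · have e1 := hins.1
            have e2 := hqi.1
            simp only [min_eq_right h5.le] at e1 e2
            exact ⟨fun _ => e2, fun _ => e1⟩
        · exact (h2 r hr).trans (hi2 r hr).1.symm
      have h3 := hg' z qi hzP hqiP h1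
      simp only [hgdef, if_neg hz1, if_pos (And.intro hns hins), h3, hc]
      group
    · have h1 : SI (insert q P) z qo := by
        rcases lt_or_gt_of_ne hpq with h5 | h5
        · have ho : q < qo := by
            by_contra h6
            have h7 : qo < q := lt_of_le_of_ne (not_lt.1 h6) ho1
            apply hqo
            constructor
            · simp only [min_eq_left h5.le]
              exact (ho2 p hp).1.2 h5
            · simp only [max_eq_right h5.le]; exact h7
          rcases hzq with h3 | h3 | h3
          · left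
            intro r hr
            rcases hr with rfl | hr
            · have h6 : p < z := (h3 p hp).2 h5
              have h7 : r < z := by
                by_contra h8
                apply hins
                constructor
                · simp only [min_eq_left h5.le]; exact h6
                · simp only [max_eq_right h5.le]
                  exact lt_of_le_of_ne (not_lt.1 h8) hz1
              exact ⟨fun _ => ho, fun _ => h7⟩
            · exact (h3 r hr).trans (ho2 r hr).1.symm
          · exact absurd (h3 p hp).2 (not_lt.2 h5.le)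
          · right; right
            intro r hr
            rcases hr with rfl | hr
            · exact ⟨(h3 p hp).1.trans h5, ho⟩
            · exact ⟨(h3 r hr).1, (h3 r hr).2.trans ho⟩
        · have ho : qo < q := by
            by_contra h6
            have h7 : q < qo := lt_of_le_of_ne (not_lt.1 h6) (Ne.symm ho1)
            apply hqo
            constructor
            · simp only [min_eq_right h5.le]; exact h7
            · simp only [max_eq_left h5.le]
              have h8 := (ho2 p hp)
              have h9 : ¬ p < qo := fun h => lt_asymm h5 (h8.1.1 h)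
              exact lt_of_le_of_ne (not_lt.1 h9) (Ne.symm h8.2)
          rcases hzq with h3 | h3 | h3
          · left
            intro r hr
            rcases hr with rfl | hr
            · have h6 : ¬ p < z := fun h => lt_asymm h5 ((h3 p hp).1 h)
              have h6' : z < p := lt_of_le_of_ne (not_lt.1 h6) (fun h => hz (h ▸ hp))
              have h7 : ¬ r < z := by
                intro h8
                apply hins
                constructor
                · simp only [min_eq_right h5.le]; exact h8
                · simp only [max_eq_left h5.le]; exact h6'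
              exact ⟨fun h => absurd h h7, fun h => absurd h (not_lt.2 ho.le)⟩
            · exact (h3 r hr).trans (ho2 r hr).1.symm
          · right; left
            intro r hr
            rcases hr with rfl | hr
            · exact ⟨h5.trans (h3 p hp).1, ho⟩
            · exact ⟨(h3 r hr).1, ho.trans (h3 r hr).2⟩
          · exact absurd (h3 p hp).2 (not_lt.2 h5.le)
      have h3 := hg' z qo hzP hqoP h1
      simp only [hgdef, if_neg hz1, if_neg (fun h : NS U z q ∧ Ins (p, q) z => hins h.2), h3]
  -- the labelling `g` is constant on the intervals of `P`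
  have hg : ∀ x y, x ∉ P → y ∉ P → SI P x y → g x = g y := by
    intro x y hx hy hxy
    by_cases hxq : SI P x q
    · rw [key1 x hx hxq, key1 y hy (hxy.symm.trans hPne hxq hy hx hq)]
    · have hyq : ¬ SI P y q := fun h => hxq (hxy.trans hPne h hx hy hq)
      have hx1 : x ≠ q := by rintro rfl; exact hxq (SI.refl _ _)
      have hy1 : y ≠ q := by rintro rfl; exact hyq (SI.refl _ _)
      have hxP : x ∉ insert q P := by
        rintro (h1 | h1)
        · exact hx1 h1
        · exact hx h1
      have hyP : y ∉ insert q P := by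
        rintro (h1 | h1)
        · exact hy1 h1
        · exact hy h1
      have gx : ∀ {w : ℝ}, w ∉ P → ∀ p ∈ P, ¬ p < w → w < p := by
        intro w hw p hp h
        exact lt_of_le_of_ne (not_lt.1 h) (fun h2 => hw (h2 ▸ hp))
      have hxy' : SI (insert q P) x y := by
        rcases hxy with h1 | h1 | h1
        · left
          intro r hr
          rcases hr with rfl | hr
          · constructor
            · intro h2
              by_contra h3
              apply hyq
              left
              intro s hs
              constructor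
              · intro h4
                exact h4.trans_le (not_lt.1 h3)
              · intro h4
                exact (h1 s hs).1 (h4.trans h2)
            · intro h2
              by_contra h3
              apply hxq
              left
              intro s hs
              constructor
              · intro h4
                exact h4.trans_le (not_lt.1 h3)
              · intro h4
                exact (h1 s hs).2 (h4.trans h2)
          · exact h1 r hr
        · right; left
          intro r hr
          rcases hr with rfl | hr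
          · refine ⟨?_, ?_⟩
            · by_contra h2
              have h2' : x < r := lt_of_le_of_ne (not_lt.1 h2) hx1
              apply hxq
              left
              intro s hs
              exact ⟨fun h => h.trans h2', fun _ => (h1 s hs).1⟩
            · by_contra h2
              have h2' : r < y := lt_of_le_of_ne (not_lt.1 h2) (Ne.symm hy1)
              apply hyq
              left
              intro s hs
              exact ⟨fun h => absurd h (not_lt.2 (h1 s hs).2.le),
                fun h => absurd (h.trans h2') (not_lt.2 (h1 s hs).2.le)⟩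
          · exact h1 r hr
        · right; right
          intro r hr
          rcases hr with rfl | hr
          · refine ⟨?_, ?_⟩
            · by_contra h2
              have h2' : r < x := lt_of_le_of_ne (not_lt.1 h2) (Ne.symm hx1)
              apply hxq
              left
              intro s hs
              exact ⟨fun h => absurd h (not_lt.2 (h1 s hs).1.le),
                fun h => absurd (h.trans h2') (not_lt.2 (h1 s hs).1.le)⟩
            · by_contra h2
              have h2' : y < r := lt_of_le_of_ne (not_lt.1 h2) hy1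
              apply hyq
              left
              intro s hs
              exact ⟨fun h => h.trans h2', fun _ => (h1 s hs).2⟩
          · exact h1 r hr
      have e1 := hg' x y hxP hyP hxy'
      have e2 : Ins (p, q) x ↔ Ins (p, q) y :=
        hxy'.ins hxP hyP (mem_insert_of_mem _ hp) (mem_insert _ _)
      have e3 : NS U x q ↔ NS U y q := by
        have h4 : NS U x y := fun e he => hxy.ins hx hy (hU e he).1 (hU e he).2
        exact ⟨fun h => h4.symm.trans h, fun h => h4.trans h⟩
      simp only [hgdef, if_neg hx1, if_neg hy1, e1, e2, e3]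
  obtain ⟨u, hu1, hu2⟩ := h G g hg
  refine ⟨fun x => if NS U x q ∧ Ins (p, q) x then u x * c else u x, ?_, ?_⟩
  · intro x y hx hy hxy
    have hx' : x ∉ P := fun h => hx (mem_insert_of_mem _ h)
    have hy' : y ∉ P := fun h => hy (mem_insert_of_mem _ h)
    have e1 : NS U x y := hxy.mono (subset_insert _ _)
    have e2 : Ins (p, q) x ↔ Ins (p, q) y := hxy _ (mem_insert _ _)
    have e3 : NS U x q ↔ NS U y q := ⟨fun h => e1.symm.trans h, fun h => e1.trans h⟩
    have e4 := hu1 x y hx' hy' e1
    simp only [e2, e3, e4]
  · have e : ∀ x, x ∉ insert q P →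
        (if NS U x q ∧ Ins (p, q) x then u x * c else u x) * g' x = u x * g x := by
      intro x hx
      have hx1 : x ≠ q := fun h => hx (h ▸ mem_insert _ _)
      by_cases hh : NS U x q ∧ Ins (p, q) x
      · simp only [hgdef, if_neg hx1, if_pos hh]
        group
      · simp only [hgdef, if_neg hx1, if_neg hh]
    intro x y hx hy hxy
    have hx' : x ∉ P := fun h => hx (mem_insert_of_mem _ h)
    have hy' : y ∉ P := fun h => hy (mem_insert_of_mem _ h)
    show (if NS U x q ∧ Ins (p, q) x then u x * c else u x) * g' x =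
      (if NS U y q ∧ Ins (p, q) y then u y * c else u y) * g' y
    rw [e x hx, e y hy]
    exact hu2 x y hx' hy' hxy

/-- **The potential lemma.** -/
theorem Tree.pot {P : Set ℝ} {U D : Set (ℝ × ℝ)} (h : Tree P U D) : HasPot P U D := by
  induction h with
  | pt c =>
    intro G _ g hg
    refine ⟨fun _ => 1, fun _ _ _ _ _ => rfl, ?_⟩
    intro x y hx hy _
    rw [hg x y hx hy]
    simp only [mem_singleton_iff] at hx hy
    rcases lt_or_gt_of_ne hx with h1 | h1 <;> rcases lt_or_gt_of_ne hy with h2 | h2
    · left; rintro p rfl; exact ⟨fun h => absurd h (not_lt.2 h1.le), fun h => absurd h (not_lt.2 h2.le)⟩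
    · right; right; rintro p rfl; exact ⟨h1, h2⟩
    · right; left; rintro p rfl; exact ⟨h1, h2⟩
    · left; rintro p rfl; exact ⟨fun _ => h2, fun _ => h1⟩
  | up h1 h2 h3 ih => exact ih.up h1.finite h1.ends_up h2 h3
  | dn h1 h2 h3 ih => exact (ih.swap.up h1.finite h1.ends_dn h2 h3).swap

end Vale.Agent.P040.H177
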