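import Vale.Agent.P040.H177.Pot
import Vale.Agent.P040.H198.ArcDiag

/-!
# The star of an arc diagram is a tree of page arcs
-/

namespace Vale.Agent.P040.H177

open Set Topo

/-- the points of the first `i` pieces of an arm -/
def apts (B : Arm) (i : ℕ) : Set ℝ := {t | ∃ j ≤ i, t = B.p j}

/-- the pieces `< i` in the page `s` -/
def aarcs (B : Arm) (s : Bool) (i : ℕ) : Set (ℝ × ℝ) :=
  {e | ∃ j < i, B.page j = s ∧ e = (B.p j, B.p (j + 1))}

theorem apts_succ (B : Arm) (i : ℕ) : apts B (i + 1) = insert (B.p (i + 1)) (apts B i) := by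
  ext t
  simp only [apts, mem_ofPred_eq, mem_insert_iff]
  constructor
  · rintro ⟨j, hj, rfl⟩
    rcases Nat.lt_or_ge i j with h | h
    · left; rw [show j = i + 1 by omega]
    · right; exact ⟨j, h, rfl⟩
  · rintro (rfl | ⟨j, hj, rfl⟩)
    · exact ⟨i + 1, le_rfl, rfl⟩
    · exact ⟨j, by omega, rfl⟩

theorem aarcs_succ_of_eq (B : Arm) (s : Bool) (i : ℕ) (h : B.page i = s) :
    aarcs B s (i + 1) = insert (B.p i, B.p (i + 1)) (aarcs B s i) := by
  ext e
  simp only [aarcs, mem_ofPred_eq, mem_insert_iff]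
  constructor
  · rintro ⟨j, hj, h1, rfl⟩
    rcases Nat.lt_or_ge j i with h2 | h2
    · right; exact ⟨j, h2, h1, rfl⟩
    · left; rw [show j = i by omega]
  · rintro (rfl | ⟨j, hj, h1, rfl⟩)
    · exact ⟨i, by omega, h, rfl⟩
    · exact ⟨j, by omega, h1, rfl⟩

theorem aarcs_succ_of_ne (B : Arm) (s : Bool) (i : ℕ) (h : B.page i ≠ s) :
    aarcs B s (i + 1) = aarcs B s i := by
  ext e
  simp only [aarcs, mem_ofPred_eq]
  constructor
  · rintro ⟨j, hj, h1, rfl⟩
    refine ⟨j, ?_, h1, rfl⟩
    rcases Nat.lt_or_ge j i with h2 | h2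
    · exact h2
    · exact absurd (show B.page i = s by rw [← h1, show i = j by omega]) h
  · rintro ⟨j, hj, h1, rfl⟩
    exact ⟨j, by omega, h1, rfl⟩

/-- Adding an arm to a tree. -/
theorem Tree.add_arm {P : Set ℝ} {U D : Set (ℝ × ℝ)} (h : Tree P U D) (B : Arm)
    (h0 : B.p 0 ∈ P) (h1 : ∀ i, 1 ≤ i → i ≤ B.len → B.p i ∉ P)
    (h2 : ∀ i j, i < j → j ≤ B.len → B.p i ≠ B.p j) (i : ℕ) (hi : i ≤ B.len) :
    Tree (P ∪ apts B i) (U ∪ aarcs B true i) (D ∪ aarcs B false i) := by
  induction i with
  | zero =>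
    have e1 : P ∪ apts B 0 = P := by
      rw [union_eq_self_of_subset_right]
      rintro t ⟨j, hj, rfl⟩
      rw [show j = 0 by omega]
      exact h0
    have e2 : ∀ s, aarcs B s 0 = ∅ := by
      intro s
      ext e
      simp [aarcs]
    rw [e1, e2, e2, union_empty, union_empty]
    exact h
  | succ i ih =>
    have ht := ih (by omega)
    have hp : B.p i ∈ P ∪ apts B i := Or.inr ⟨i, le_rfl, rfl⟩
    have hq : B.p (i + 1) ∉ P ∪ apts B i := by
      rintro (h3 | ⟨j, hj, h3⟩)
      · exact h1 (i + 1) (by omega) hi h3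
      · exact h2 j (i + 1) (by omega) hi h3.symm
    rw [apts_succ, union_insert]
    rcases hs : B.page i with _ | _
    · rw [aarcs_succ_of_ne B true i (by rw [hs]; decide), aarcs_succ_of_eq B false i hs,
        union_insert]
      exact ht.dn hp hq
    · rw [aarcs_succ_of_ne B false i (by rw [hs]; decide), aarcs_succ_of_eq B true i hs,
        union_insert]
      exact ht.up hp hq

end Vale.Agent.P040.H177

namespace Vale.Agent.P040

namespace Topo.ArcDiagram

open Set H177

variable {m n : ℕ} (A : ArcDiagram m n) (b : Fin n)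

/-- The points of the star `b` on the spine. -/
def pts : Set ℝ := {t | ∃ x, ∃ i ≤ (A.arm x b).len, t = (A.arm x b).p i}

/-- The upper pieces of the star `b`. -/
def ups : Set (ℝ × ℝ) :=
  {e | ∃ x, ∃ j < (A.arm x b).len, (A.arm x b).page j = true ∧
    e = ((A.arm x b).p j, (A.arm x b).p (j + 1))}

/-- The lower pieces of the star `b`. -/
def dns : Set (ℝ × ℝ) :=
  {e | ∃ x, ∃ j < (A.arm x b).len, (A.arm x b).page j = false ∧
    e = ((A.arm x b).p j, (A.arm x b).p (j + 1))}

theorem tree_aux (k : ℕ) : Tree ({A.ctr b} ∪ {t | ∃ x : Fin m, (x : ℕ) < k ∧ t ∈ apts (A.arm x b) (A.arm x b).len})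
    {e | ∃ x : Fin m, (x : ℕ) < k ∧ e ∈ aarcs (A.arm x b) true (A.arm x b).len}
    {e | ∃ x : Fin m, (x : ℕ) < k ∧ e ∈ aarcs (A.arm x b) false (A.arm x b).len} := by
  induction k with
  | zero => simpa using Tree.pt (A.ctr b)
  | succ k ih =>
    by_cases hk : k < m
    · set x : Fin m := ⟨k, hk⟩ with hx
      have h0 : (A.arm x b).p 0 ∈ ({A.ctr b} ∪
          {t | ∃ x : Fin m, (x : ℕ) < k ∧ t ∈ apts (A.arm x b) (A.arm x b).len} : Set ℝ) := by
        left; exact A.arm_zero x b
      have h1 : ∀ i, 1 ≤ i → i ≤ (A.arm x b).len → (A.arm x b).p i ∉ ({A.ctr b} ∪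
          {t | ∃ x : Fin m, (x : ℕ) < k ∧ t ∈ apts (A.arm x b) (A.arm x b).len} : Set ℝ) := by
        intro i hi1 hi2 hmem
        rcases hmem with h3 | ⟨y, hy, j, hj, h3⟩
        · have h4 : (A.arm x b).p i = (A.arm x b).p 0 := by rw [A.arm_zero]; exact h3
          have := (A.arm x b).len_pos
          rcases A.inj x b i x b 0 hi2 (by omega) h4 with h | h | h <;> omega
        · rcases A.inj x b i y b j hi2 hj h3 with h | h | h
          · have := congrArg Fin.val h.1
            simp only [hx] at this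
            omega
          · omega
          · have := congrArg Fin.val h.1
            simp only [hx] at this
            omega
      have h2 : ∀ i j, i < j → j ≤ (A.arm x b).len → (A.arm x b).p i ≠ (A.arm x b).p j := by
        intro i j hij hj h3
        rcases A.inj x b i x b j (by omega) hj h3 with h | h | h <;> omega
      have key := ih.add_arm (A.arm x b) h0 h1 h2 (A.arm x b).len le_rfl
      have e1 : ∀ {α : Type} (S : Fin m → Set α),
          {e | ∃ y : Fin m, (y : ℕ) < k + 1 ∧ e ∈ S y} =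
            {e | ∃ y : Fin m, (y : ℕ) < k ∧ e ∈ S y} ∪ S x := by
        intro α S
        ext e
        simp only [mem_ofPred_eq, mem_union]
        constructor
        · rintro ⟨y, hy, he⟩
          rcases Nat.lt_or_ge y k with h | h
          · left; exact ⟨y, h, he⟩
          · right
            have : y = x := Fin.ext (by simp only [hx]; omega)
            rw [← this]; exact he
        · rintro (⟨y, hy, he⟩ | he)
          · exact ⟨y, by omega, he⟩
          · exact ⟨x, by simp [hx], he⟩
      rw [e1, e1, e1, ← union_assoc]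
      exact key
    · have e1 : ∀ {α : Type} (S : Fin m → Set α),
          {e | ∃ y : Fin m, (y : ℕ) < k + 1 ∧ e ∈ S y} =
            {e | ∃ y : Fin m, (y : ℕ) < k ∧ e ∈ S y} := by
        intro α S
        ext e
        simp only [mem_ofPred_eq]
        constructor
        · rintro ⟨y, hy, he⟩
          exact ⟨y, by have := y.2; omega, he⟩
        · rintro ⟨y, hy, he⟩
          exact ⟨y, by omega, he⟩
      rw [e1, e1, e1]
      exact ih

/-- **The star of an arc diagram is a tree of page arcs.** -/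
theorem tree (hm : 0 < m) : Tree (A.pts b) (A.ups b) (A.dns b) := by
  have h := A.tree_aux b m
  have e1 : ({A.ctr b} ∪ {t | ∃ x : Fin m, (x : ℕ) < m ∧ t ∈ apts (A.arm x b) (A.arm x b).len} :
      Set ℝ) = A.pts b := by
    ext t
    simp only [mem_union, mem_singleton_iff, mem_ofPred_eq, apts, pts]
    constructor
    · rintro (rfl | ⟨x, -, j, hj, rfl⟩)
      · exact ⟨⟨0, hm⟩, 0, by omega, (A.arm_zero _ b).symm⟩
      · exact ⟨x, j, hj, rfl⟩
    · rintro ⟨x, j, hj, rfl⟩
      right
      exact ⟨x, x.2, j, hj, rfl⟩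
  have e2 : ∀ s, {e | ∃ x : Fin m, (x : ℕ) < m ∧ e ∈ aarcs (A.arm x b) s (A.arm x b).len} =
      {e | ∃ x, ∃ j < (A.arm x b).len, (A.arm x b).page j = s ∧
        e = ((A.arm x b).p j, (A.arm x b).p (j + 1))} := by
    intro s
    ext e
    simp only [mem_ofPred_eq, aarcs]
    constructor
    · rintro ⟨x, -, j, hj, h1, rfl⟩
      exact ⟨x, j, hj, h1, rfl⟩
    · rintro ⟨x, j, hj, h1, rfl⟩
      exact ⟨x, x.2, j, hj, h1, rfl⟩
  rw [e1, e2 true, e2 false] at h
  exact h

/-- **The potential of a star.** -/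
theorem pot (hm : 0 < m) : HasPot (A.pts b) (A.ups b) (A.dns b) := (A.tree b hm).pot

end Topo.ArcDiagram

end Vale.Agent.P040
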